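import Vale.Agent.P181.FL.Defs
import Vale.Agent.P181.H867.PowG
import Vale.Agent.P181.FLAT.H487.Words
import Vale.Agent.P181.FLAT.H858.Glue

set_option autoImplicit false

/-!
# P181, FL: the assembly from `DomStmt`, any number of slots
-/

open scoped BigOperators TensorProduct

namespace Vale.Agent.P181.H445.FL

open Finset MvPolynomial
open Vale.Agent.P181 Vale.Agent.P181.FL Vale.Agent.P181.H280 Vale.Agent.P181.H867
  Vale.Agent.P181.FLAT.H858

section

variable {d q c n : ℕ}

/-- The value of the form on a word. -/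
noncomputable def wv (F : MultilinearMap ℂ (fun _ : Fin d => MvPolynomial (Fin n) ℂ) ℂ)
    (v : Pos d q c → Fin n) : ℂ :=
  F (fun i => ∏ k : Fin q, ∏ s : Fin c, (X (v ((i, k), s)) : MvPolynomial (Fin n) ℂ))

lemma slot_prod (v : Pos d q c → Fin n) (i : Fin d) :
    ∏ k : Fin q, ∏ s : Fin c, (X (v ((i, k), s)) : MvPolynomial (Fin n) ℂ) =
      ∏ p ∈ univ.filter (fun p : Pos d q c => p.1.1 = i), X (v p) := by
  rw [prod_filter, Fintype.prod_prod_type, Fintype.prod_prod_type]
  rw [prod_eq_single i]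
  · simp
  · intro j _ hj
    simp [hj]
  · intro h
    exact absurd (mem_univ i) h

lemma wv_slot (F : MultilinearMap ℂ (fun _ : Fin d => MvPolynomial (Fin n) ℂ) ℂ)
    (g : Equiv.Perm (Pos d q c)) (hg : ∀ p, (g p).1.1 = p.1.1) (v : Pos d q c → Fin n) :
    wv F (fun p => v (g p)) = wv F v := by
  rw [wv, wv]
  congr 1
  funext i
  rw [slot_prod v i, slot_prod (fun p => v (g p)) i]
  refine prod_bij (fun p _ => g p) ?_ ?_ ?_ ?_
  · intro p hp
    rw [mem_filter] at hp ⊢
    exact ⟨mem_univ _, by rw [hg p, hp.2]⟩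
  · intro p _ p' _ h
    exact g.injective h
  · intro p hp
    rw [mem_filter] at hp
    refine ⟨g.symm p, ?_, by simp⟩
    rw [mem_filter]
    refine ⟨mem_univ _, ?_⟩
    have h1 := hg (g.symm p)
    rw [Equiv.apply_symm_apply] at h1
    rw [← h1, hp.2]
  · intro p _
    rfl

lemma wv_ex {F : MultilinearMap ℂ (fun _ : Fin d => MvPolynomial (Fin n) ℂ) ℂ} (hF : IsSymm F)
    (e : Equiv.Perm (Fin d)) (v : Pos d q c → Fin n) :
    wv F (fun p => v ((e p.1.1, p.1.2), p.2)) = wv F v :=
  hF e (fun i => ∏ k : Fin q, ∏ s : Fin c, (X (v ((i, k), s)) : MvPolynomial (Fin n) ℂ))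

lemma wv_pow {F : MultilinearMap ℂ (fun _ : Fin d => MvPolynomial (Fin n) ℂ) ℂ}
    (hF : ∀ G ∈ linS n ^ c, F (fun _ => G ^ q) = 0) (v : Pos d q c → Fin n) :
    ∑ g : Equiv.Perm (Fin d × Fin q), wv F (fun p => v (g p.1, p.2)) = 0 := by
  have h1 := polar (rowProd q F) (linS n ^ c) (fun G hG => by
      rw [rowProd_apply]
      simp only [prod_const, card_univ, Fintype.card_fin]
      exact hF G hG)
    (fun ik : Fin d × Fin q => ∏ s : Fin c, (X (v (ik, s)) : MvPolynomial (Fin n) ℂ))
    (fun ik => prod_mem_pow _ _ (fun s => X_mem_linS _))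
  rw [← h1]
  refine sum_congr rfl fun g _ => ?_
  rw [rowProd_apply]
  rfl

/-- The odd form of a word function. -/
noncomputable def kapW {D M : ℕ} (x : (Fin D → Fin n) → ℂ) (κ : Fin D → Fin M) (w : Fin D → Fin n)
    {P : Type} [Fintype P] (ε : P ≃ Fin D) (cc : P → Fin M) : ℂ :=
  ∑ σ : Equiv.Perm (Fin D), (if ∀ p, κ (σ (ε p)) = cc p then
    ((Equiv.Perm.sign σ : ℤ) : ℂ) * x (fun j => w (σ j)) else 0)

lemma kapW_perm {D M : ℕ} (x : (Fin D → Fin n) → ℂ) (κ : Fin D → Fin M) (w : Fin D → Fin n)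
    {P : Type} [Fintype P] [DecidableEq P] (ε : P ≃ Fin D) (cc : P → Fin M)
    (g : Equiv.Perm P) :
    kapW x κ w ε (fun p => cc (g p)) =
      ∑ σ : Equiv.Perm (Fin D), (if ∀ p, κ (σ (ε p)) = cc p then
        ((Equiv.Perm.sign g : ℤ) : ℂ) * (((Equiv.Perm.sign σ : ℤ) : ℂ) *
          x (fun j => w (σ (ε (g (ε.symm j)))))) else 0) := by
  rw [kapW]
  rw [← Equiv.sum_comp (Equiv.mulRight ((ε.symm.trans g).trans ε : Equiv.Perm (Fin D)))]
  refine sum_congr rfl fun σ _ => ?_
  have h1 : ∀ j, (Equiv.mulRight ((ε.symm.trans g).trans ε : Equiv.Perm (Fin D))) σ j =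
      σ (ε (g (ε.symm j))) := fun j => rfl
  have h2 : (∀ p, κ ((Equiv.mulRight ((ε.symm.trans g).trans ε : Equiv.Perm (Fin D))) σ (ε p)) =
      cc (g p)) ↔ ∀ p, κ (σ (ε p)) = cc p := by
    constructor
    · intro h3 p
      have h4 := h3 (g.symm p)
      rw [h1, Equiv.symm_apply_apply, Equiv.apply_symm_apply] at h4
      exact h4
    · intro h3 p
      rw [h1, Equiv.symm_apply_apply]
      exact h3 (g p)
  have h3 : Equiv.Perm.sign ((Equiv.mulRight ((ε.symm.trans g).trans ε :
      Equiv.Perm (Fin D))) σ) = Equiv.Perm.sign g * Equiv.Perm.sign σ := by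
    rw [Equiv.coe_mulRight, Equiv.Perm.sign_mul, Equiv.Perm.sign_symm_trans_trans, mul_comm]
  rw [if_congr h2 rfl rfl]
  split_ifs
  · rw [h3]
    push_cast
    rw [mul_assoc]
    rfl
  · rfl

lemma sign_blockA {N m : ℕ} (hm : Even m) (g : Equiv.Perm (Fin N × Fin q)) :
    Equiv.Perm.sign (Equiv.prodCongrLeft (fun _ : Fin m => g) : Equiv.Perm (Pos N q m)) = 1 := by
  rw [Equiv.Perm.sign_prodCongrLeft, prod_const, card_univ, Fintype.card_fin]
  obtain ⟨r, hr⟩ := hm
  rw [hr, ← two_mul, pow_mul, Int.units_sq, one_pow]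

/-- The column antisymmetrisations vanish. -/
theorem antisymm_zero (hD : DomStmt) (hc : Even c) (hq : 1 ≤ q)
    {F : MultilinearMap ℂ (fun _ : Fin d => MvPolynomial (Fin n) ℂ) ℂ} (hs : IsSymm F)
    (hF : ∀ G ∈ linS n ^ c, F (fun _ => G ^ q) = 0) {D : ℕ} (ε : Pos d q c ≃ Fin D)
    (κ : Fin D → Fin ((q + 1) * c)) (w : Fin D → Fin n) :
    ∑ σ : {σ : Equiv.Perm (Fin D) // κ ∘ σ = κ}, (Equiv.Perm.sign σ.1 : ℂ) *
      wv F (fun p => (w ∘ σ.1) (ε p)) = 0 := by
  set x : (Fin D → Fin n) → ℂ := fun u => wv F (fun p => u (ε p)) with hx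
  have hk : ∀ cc, kapW x κ w ε cc = 0 := by
    refine hD d q c _ hc hq ?_ ?_ ?_
    · intro g hg cc
      rw [kapW_perm, kapW, mul_sum]
      refine sum_congr rfl fun σ _ => ?_
      rw [mul_ite, mul_zero]
      split_ifs
      · congr 2
        have h1 := wv_slot F g hg (fun p => w (σ (ε p)))
        simp only [hx, Equiv.symm_apply_apply]
        exact h1
      · rfl
    · intro s cc
      have h1 := kapW_perm x κ w ε cc
        (Equiv.prodCongrLeft (fun _ : Fin c => s.prodCongr (Equiv.refl (Fin q))))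
      rw [sign_blockA hc] at h1
      have h2 : (fun p : Pos d q c => cc ((s p.1.1, p.1.2), p.2)) =
          fun p => cc ((Equiv.prodCongrLeft (fun _ : Fin c => s.prodCongr (Equiv.refl (Fin q)))) p) := by
        funext p
        rfl
      rw [h2, h1, kapW]
      refine sum_congr rfl fun σ _ => ?_
      split_ifs
      · have h3 := wv_ex hs s (fun p => w (σ (ε p)))
        rw [Units.val_one, Int.cast_one, one_mul]
        congr 1
        simp only [hx, Equiv.symm_apply_apply]
        exact h3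
      · rfl
    · intro cc
      have h1 : ∀ g : Equiv.Perm (Fin d × Fin q),
          kapW x κ w ε (fun p => cc (g p.1, p.2)) =
          ∑ σ : Equiv.Perm (Fin D), (if ∀ p, κ (σ (ε p)) = cc p then
            (((Equiv.Perm.sign σ : ℤ) : ℂ) *
              wv F (fun p => w (σ (ε (g p.1, p.2))))) else 0) := by
        intro g
        have h2 := kapW_perm x κ w ε cc (Equiv.prodCongrLeft (fun _ : Fin c => g))
        rw [sign_blockA hc] at h2
        have h3 : (fun p : Pos d q c => cc (g p.1, p.2)) =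
            fun p => cc ((Equiv.prodCongrLeft (fun _ : Fin c => g)) p) := by
          funext p
          rfl
        rw [h3, h2]
        refine sum_congr rfl fun σ _ => ?_
        split_ifs
        · rw [Units.val_one, Int.cast_one, one_mul]
          congr 1
          simp only [hx, Equiv.symm_apply_apply]
          rfl
        · rfl
      simp only [h1]
      rw [sum_comm]
      refine sum_eq_zero fun σ _ => ?_
      split_ifs
      · rw [← mul_sum, wv_pow hF (fun p => w (σ (ε p))), mul_zero]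
      · exact sum_const_zero
  have h1 := hk (fun p => κ (ε p))
  rw [kapW, ← sum_filter (fun σ : Equiv.Perm (Fin D) => ∀ p, κ (σ (ε p)) = κ (ε p))] at h1
  refine Eq.trans ?_ h1
  refine sum_bij' (fun σ _ => σ.1) (fun σ hσ => ⟨σ, ?_⟩) ?_ ?_ ?_ ?_ ?_
  · rw [mem_filter] at hσ
    funext j
    have h2 := hσ.2 (ε.symm j)
    rw [Equiv.apply_symm_apply] at h2
    exact h2
  · intro σ _
    rw [mem_filter]
    exact ⟨mem_univ _, fun p => congrFun σ.2 (ε p)⟩
  · intro σ _
    exact mem_univ _
  · intro σ _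
    rfl
  · intro σ _
    rfl
  · intro σ _
    rfl

/-- **Flat shapes, from `DomStmt`, any number `d` of slots.** -/
theorem formsVanish (hD : DomStmt) (hc : Even c) (hq : 1 ≤ q) (lam : Fin n → ℕ)
    (hlam : ∀ i, lam i ≤ (q + 1) * c) : FormsVanishG d q c n lam := by
  classical
  intro l hx hpow
  let ε : Pos d q c ≃ Fin (d * (q * c)) :=
    ((Equiv.prodAssoc (Fin d) (Fin q) (Fin c)).trans
      ((Equiv.refl (Fin d)).prodCongr finProdFinEquiv)).trans finProdFinEquiv
  have hval : ∀ u : Fin (d * (q * c)) → Fin n,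
      wf l (fun p => u (finProdFinEquiv p)) = wv (formOf l) (fun p => u (ε p)) := by
    intro u
    rw [wf, wv]
    congr 1
    funext i
    rw [← Equiv.prod_comp finProdFinEquiv, Fintype.prod_prod_type]
    rfl
  have h0 : (fun u : Fin (d * (q * c)) → Fin n => wf l (fun p => u (finProdFinEquiv p))) = 0 := by
    refine FLAT.H487.words (M := (q + 1) * c) _ ?_ ?_
    · intro P hP w
      exact wf_symP finProdFinEquiv lam hlam l hx P hP w
    · intro κ w
      simp only [hval]
      exact antisymm_zero hD hc hq (formOf_symm l) hpow ε κ w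
  have h1 : ∀ w, wf l w = 0 := by
    intro w
    have h2 := congrFun h0 (fun j => w (finProdFinEquiv.symm j))
    simpa using h2
  intro P hP
  apply multilinear_zero_of_span (formOf l)
    (Set.range (fun c' : Fin (q * c) → Fin n => ∏ j, (X (c' j) : MvPolynomial (Fin n) ℂ)))
  · intro w hw
    choose c' hc' using hw
    rw [← h1 (fun p => c' p.1 p.2), wf]
    congr 1
    funext i
    exact (hc' i).symm
  · intro i
    exact span_pow_eq _ _ (hP i)

/-- **Foulkes' inequality for flat shapes**, generalised to any number `d` of slots. -/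
theorem flatG (hD : DomStmt) (d q c n : ℕ) (lam : Fin n → ℕ) (hc : Even c) (hq : 1 ≤ q)
    (hlam : ∀ i, lam i ≤ (q + 1) * c) :
    plethMult d (q * c) n lam ≤ plethMult (q * d) c n lam :=
  plethMultG_le_of d q c n lam (formsVanish hD hc hq lam hlam)

theorem flat (hD : DomStmt) : FlatStmt := fun a q n lam ha hq hlam =>
  flatG hD a q a n lam ha hq hlam

end

end Vale.Agent.P181.H445.FL
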