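import Vale.Agent.P181.FL.Defs
import Mathlib.Algebra.Polynomial.Identities
import Mathlib.Algebra.Polynomial.Roots

set_option autoImplicit false

/-!
# P181, FL (POW): the power series lemma
-/

open scoped BigOperators

namespace Vale.Agent.P181.H445.FL

open Finset Polynomial
open Vale.Agent.P181.FL

section

variable {R : Type} [CommRing R] [Algebra ℂ R]

lemma coeff_pow_mem (A : Submodule ℂ R) (F : R[X]) (hF : ∀ i, F.coeff i ∈ A) (q : ℕ) :
    ∀ j, (F ^ q).coeff j ∈ A ^ q := by
  induction q with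
  | zero =>
    intro j
    rw [pow_zero, pow_zero, Polynomial.coeff_one]
    split_ifs
    · exact Submodule.one_le.1 le_rfl
    · exact Submodule.zero_mem _
  | succ q ih =>
    intro j
    rw [pow_succ, pow_succ, Polynomial.coeff_mul]
    exact Submodule.sum_mem _ fun p _ => Submodule.mul_mem_mul (ih _) (hF _)

lemma series (A B : Submodule ℂ R) (q : ℕ) (F₀ : R) (hq : 1 ≤ q) (h0 : F₀ ∈ A) (hAB : A ^ q ≤ B)
    (hL : ∀ K ∈ B, ∃ H ∈ A, F₀ ^ (q - 1) * H = K) (K : R) (hK : K ∈ B) (n : ℕ) :
    ∃ F : R[X], (∀ i, F.coeff i ∈ A) ∧ F.coeff 0 = F₀ ∧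
      ∀ j, 1 ≤ j → j ≤ n → (F ^ q).coeff j = if j = 1 then K else 0 := by
  induction n with
  | zero =>
    refine ⟨C F₀, fun i => ?_, by simp, fun j h1 h2 => by omega⟩
    rw [Polynomial.coeff_C]
    split_ifs
    · exact h0
    · exact A.zero_mem
  | succ n ih =>
    obtain ⟨F, hF, hF0, hj⟩ := ih
    set e : R := (if n + 1 = 1 then K else 0) - (F ^ q).coeff (n + 1) with he
    have heB : e ∈ B := by
      refine B.sub_mem ?_ (hAB (coeff_pow_mem A F hF q _))
      split_ifs
      · exact hK
      · exact B.zero_mem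
    obtain ⟨H, hH, hHe⟩ := hL _ (B.smul_mem ((q : ℂ)⁻¹) heB)
    have hqe : (q : R) * (F₀ ^ (q - 1) * H) = e := by
      rw [hHe, ← nsmul_eq_mul, ← Nat.cast_smul_eq_nsmul ℂ q, smul_smul,
        mul_inv_cancel₀ (Nat.cast_ne_zero.2 (by omega)), one_smul]
    refine ⟨F + C H * X ^ (n + 1), fun i => ?_, ?_, fun j h1 h2 => ?_⟩
    · rw [coeff_add, coeff_C_mul_X_pow]
      split_ifs
      · exact A.add_mem (hF i) hH
      · rw [add_zero]; exact hF i
    · rw [coeff_add, coeff_C_mul_X_pow, if_neg (by omega), add_zero, hF0]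
    · obtain ⟨k, hk⟩ := Polynomial.powAddExpansion F (C H * X ^ (n + 1)) q
      have hk2 : (F + C H * X ^ (n + 1)) ^ q =
          F ^ q + ((q : R[X]) * F ^ (q - 1) * C H + k * (C H) ^ 2 * X ^ (n + 1)) * X ^ (n + 1) := by
        rw [hk]; ring
      rw [hk2, coeff_add, coeff_mul_X_pow']
      by_cases hjn : j ≤ n
      · rw [if_neg (by omega), add_zero]
        exact hj j h1 hjn
      · have hjn1 : j = n + 1 := by omega
        subst hjn1
        rw [if_pos le_rfl, Nat.sub_self, coeff_add, mul_coeff_zero, mul_coeff_zero, mul_coeff_zero]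
        have h3 : (X ^ (n + 1) : R[X]).coeff 0 = 0 := by
          rw [coeff_X_pow, if_neg (by omega)]
        rw [h3, mul_zero, add_zero, coeff_C_zero, Polynomial.coeff_zero_eq_eval_zero (F ^ (q-1)), eval_pow,
          ← Polynomial.coeff_zero_eq_eval_zero, hF0, Polynomial.natCast_coeff_zero, mul_assoc, hqe, he]
        ring

end

theorem pow_series : PowStmt := by
  classical
  intro R _ _ A B q N F₀ T hq h0 hAB hL hT K hK
  obtain ⟨F, hF, hF0, hj⟩ := series A B q F₀ hq h0 hAB hL K hK (max N 1)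
  set E : ℕ → R := fun j => (F ^ q).coeff j with hE
  set D := (F ^ q).natDegree + 1 with hD
  have h1 : ∀ t : ℂ, T (fun _ => ∑ j ∈ range D, t ^ j • E j) = 0 := by
    intro t
    have h2 : F.eval (algebraMap ℂ R t) ∈ A := by
      rw [eval_eq_sum_range]
      refine A.sum_mem fun i _ => ?_
      rw [mul_comm, ← map_pow, ← Algebra.smul_def]
      exact A.smul_mem _ (hF i)
    have h3 : ∑ j ∈ range D, t ^ j • E j = (F.eval (algebraMap ℂ R t)) ^ q := by
      rw [← eval_pow, eval_eq_sum_range]
      refine sum_congr rfl fun j _ => ?_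
      rw [mul_comm, ← map_pow, ← Algebra.smul_def]
    rw [h3]
    exact hT _ h2
  set p : ℂ[X] := ∑ r ∈ Fintype.piFinset (fun _ : Fin N => range D),
    C (T (fun i => E (r i))) * X ^ (∑ i, r i) with hp
  have hp0 : p = 0 := by
    refine Polynomial.funext fun t => ?_
    rw [eval_zero, ← h1 t, MultilinearMap.map_sum_finset, hp, eval_finsetSum]
    refine sum_congr rfl fun r _ => ?_
    rw [MultilinearMap.map_smul_univ, eval_mul, eval_C, eval_pow, eval_X, prod_pow_eq_pow_sum,
      smul_eq_mul, mul_comm]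
  have h4 := congrArg (fun q => Polynomial.coeff q N) hp0
  simp only [hp, finsetSum_coeff, coeff_C_mul, coeff_X_pow, coeff_zero, mul_ite, mul_one,
    mul_zero] at h4
  have hE1 : E 1 = K := by
    have := hj 1 le_rfl (le_max_right _ _)
    simpa using this
  have hE2 : ∀ j, 2 ≤ j → j ≤ N → E j = 0 := by
    intro j h5 h6
    have := hj j (by omega) (h6.trans (le_max_left _ _))
    rw [if_neg (by omega)] at this
    exact this
  have hzero : ∀ r : Fin N → ℕ, ∑ i, r i = N → r ≠ (fun _ => 1) → T (fun i => E (r i)) = 0 := by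
    intro r hr hne
    have h5 : ∃ i, 2 ≤ r i := by
      by_contra hc
      push Not at hc
      apply hne
      have h6 : ∀ i ∈ (univ : Finset (Fin N)), r i ≤ 1 := fun i _ => by
        have := hc i; omega
      have h7 : ∑ i : Fin N, r i = ∑ _i : Fin N, 1 := by rw [hr]; simp
      have h8 := (sum_eq_sum_iff_of_le h6).1 h7
      funext i
      exact h8 i (mem_univ i)
    obtain ⟨i, hi⟩ := h5
    refine T.map_coord_zero i (hE2 _ hi ?_)
    rw [← hr]
    exact single_le_sum (f := r) (fun _ _ => Nat.zero_le _) (mem_univ i)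
  by_cases hD1 : 1 < D
  · rw [sum_eq_single_of_mem (fun _ => 1)] at h4
    · simpa [hE1] using h4
    · rw [Fintype.mem_piFinset]
      intro i
      rw [mem_range]
      exact hD1
    · intro r _ hne
      split_ifs with h9
      · exact hzero r h9.symm hne
      · rfl
  · have hE10 : E 1 = 0 := by
      refine Polynomial.coeff_eq_zero_of_natDegree_lt ?_
      omega
    rcases Nat.eq_zero_or_pos N with hN | hN
    · subst hN
      have h10 := h1 0
      rw [show (fun _ : Fin 0 => K) = (fun _ : Fin 0 => ∑ j ∈ range D, (0 : ℂ) ^ j • E j) from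
        funext fun i => i.elim0]
      exact h10
    · rw [← hE1, hE10]
      exact T.map_coord_zero ⟨0, hN⟩ rfl

end Vale.Agent.P181.H445.FL
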