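import Vale.Agent.P181.FL.Defs
import Mathlib.GroupTheory.Perm.Sign

set_option autoImplicit false

/-!
# P181, FL (TR): from even letters to odd letters
-/

open scoped BigOperators

namespace Vale.Agent.P181.H445.FL

open Finset
open Vale.Agent.P181.FL

section

variable {N q m n : ℕ} {lam : Fin n → ℕ}

/-- The column of a cell. -/
def colF (M : ℕ) (h : ∀ i, lam i ≤ M) (c : Cell lam) : Fin M := ⟨c.2, lt_of_lt_of_le c.2.2 (h c.1)⟩

/-- The odd form. -/
noncomputable def kapF {P : Type} [Fintype P] [DecidableEq P] (M : ℕ) (h : ∀ i, lam i ≤ M)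
    (f : (P → Fin n) → ℂ) (l : P ≃ Cell lam) (c : P → Fin M) : ℂ :=
  ∑ e : P ≃ Cell lam, (if ∀ p, colF M h (e p) = c p then
    ((Equiv.Perm.sign (l.symm.trans e) : ℤ) : ℂ) * f (fun p => (e p).1) else 0)

lemma kapF_perm {P : Type} [Fintype P] [DecidableEq P] (M : ℕ) (h : ∀ i, lam i ≤ M)
    (f : (P → Fin n) → ℂ) (l : P ≃ Cell lam) (c : P → Fin M) (g : Equiv.Perm P) :
    kapF M h f l (fun p => c (g p)) = ∑ e : P ≃ Cell lam, (if ∀ p, colF M h (e p) = c p then
      ((Equiv.Perm.sign g : ℤ) : ℂ) * (((Equiv.Perm.sign (l.symm.trans e) : ℤ) : ℂ) *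
        f (fun p => (e (g p)).1)) else 0) := by
  rw [kapF]
  let Θ : (P ≃ Cell lam) ≃ (P ≃ Cell lam) :=
    ⟨fun e => g.trans e, fun e => g.symm.trans e, fun e => Equiv.ext fun p => by simp,
      fun e => Equiv.ext fun p => by simp⟩
  rw [← Equiv.sum_comp Θ]
  refine sum_congr rfl fun e _ => ?_
  have h1 : ∀ p, Θ e p = e (g p) := fun p => rfl
  have h2 : (∀ p, colF M h (Θ e p) = c (g p)) ↔ ∀ p, colF M h (e p) = c p := by
    constructor
    · intro h3 p
      have h4 := h3 (g.symm p)
      rw [h1, Equiv.apply_symm_apply] at h4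
      exact h4
    · intro h3 p
      exact h3 (g p)
  have h3 : Equiv.Perm.sign (l.symm.trans (Θ e)) =
      Equiv.Perm.sign g * Equiv.Perm.sign (l.symm.trans e) := by
    have h4 : l.symm.trans (Θ e) = ((l.symm.trans g).trans l).trans (l.symm.trans e) := by
      exact Equiv.ext fun x => by simp [Θ]
    rw [h4, Equiv.Perm.sign_trans, Equiv.Perm.sign_symm_trans_trans, mul_comm]
  rw [if_congr h2 rfl rfl]
  split_ifs
  · rw [h3]
    push_cast
    rw [mul_assoc]
    rfl
  · rfl

lemma sign_block (hm : Even m) (g : Equiv.Perm (Fin N × Fin q)) :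
    Equiv.Perm.sign (Equiv.prodCongrLeft (fun _ : Fin m => g) : Equiv.Perm (Pos N q m)) = 1 := by
  rw [Equiv.Perm.sign_prodCongrLeft, prod_const, card_univ, Fintype.card_fin]
  obtain ⟨r, hr⟩ := hm
  rw [hr, ← two_mul, pow_mul, Int.units_sq, one_pow]

end

theorem word (hC : CapStmt) (hD : DomStmt) : WordStmt := by
  classical
  intro N q m n lam f hm hq hanti hlam hHW hslot hex hpow
  refine hC n lam (Pos N q m) f hanti hHW ?_
  intro l
  have hk : ∀ c, kapF ((q + 1) * m) hlam f l c = 0 := by
    refine hD N q m _ hm hq ?_ ?_ ?_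
    · intro g hg c
      rw [kapF_perm, kapF, mul_sum]
      refine sum_congr rfl fun e _ => ?_
      rw [mul_ite, mul_zero]
      split_ifs
      · rw [hslot g hg (fun p => (e p).1)]
      · rfl
    · intro s c
      have h1 := kapF_perm ((q + 1) * m) hlam f l c
        (Equiv.prodCongrLeft (fun _ : Fin m => s.prodCongr (Equiv.refl (Fin q))))
      rw [sign_block hm] at h1
      have h2 : (fun p : Pos N q m => c ((s p.1.1, p.1.2), p.2)) =
          fun p => c ((Equiv.prodCongrLeft (fun _ : Fin m => s.prodCongr (Equiv.refl (Fin q)))) p) := by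
        funext p
        rfl
      rw [h2, h1, kapF]
      refine sum_congr rfl fun e _ => ?_
      split_ifs
      · have h3 := hex s (fun p => (e p).1)
        have h4 : (fun p : Pos N q m => (e ((Equiv.prodCongrLeft
            (fun _ : Fin m => s.prodCongr (Equiv.refl (Fin q)))) p)).1) =
            fun p : Pos N q m => (e ((s p.1.1, p.1.2), p.2)).1 := by
          funext p
          rfl
        rw [h4, h3]
        simp
      · rfl
    · intro c
      have h1 : ∀ g : Equiv.Perm (Fin N × Fin q),
          kapF ((q + 1) * m) hlam f l (fun p => c (g p.1, p.2)) =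
          ∑ e : Pos N q m ≃ Cell lam, (if ∀ p, colF ((q + 1) * m) hlam (e p) = c p then
            (((Equiv.Perm.sign (l.symm.trans e) : ℤ) : ℂ) *
              f (fun p => (e (g p.1, p.2)).1)) else 0) := by
        intro g
        have h2 := kapF_perm ((q + 1) * m) hlam f l c (Equiv.prodCongrLeft (fun _ : Fin m => g))
        rw [sign_block hm] at h2
        have h3 : (fun p : Pos N q m => c (g p.1, p.2)) =
            fun p => c ((Equiv.prodCongrLeft (fun _ : Fin m => g)) p) := by
          funext p
          rfl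
        rw [h3, h2]
        refine sum_congr rfl fun e _ => ?_
        split_ifs
        · rw [Units.val_one, Int.cast_one, one_mul]
          rfl
        · rfl
      simp only [h1]
      rw [sum_comm]
      refine sum_eq_zero fun e _ => ?_
      split_ifs
      · rw [← mul_sum, hpow (fun p => (e p).1), mul_zero]
      · exact sum_const_zero
  have h1 := hk (fun p => colF ((q + 1) * m) hlam (l p))
  rw [kapF] at h1
  let Θ : Equiv.Perm (Cell lam) ≃ (Pos N q m ≃ Cell lam) :=
    ⟨fun g => l.trans g, fun e => l.symm.trans e, fun e => Equiv.ext fun p => by simp,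
      fun e => Equiv.ext fun p => by simp⟩
  rw [← Equiv.sum_comp Θ] at h1
  refine Eq.trans (sum_congr rfl fun g _ => ?_) h1
  have h2 : ∀ p, Θ g p = g (l p) := fun p => rfl
  have h3 : (∀ c, ((g c).2 : ℕ) = (c.2 : ℕ)) ↔
      ∀ p, colF ((q + 1) * m) hlam (Θ g p) = colF ((q + 1) * m) hlam (l p) := by
    constructor
    · intro h4 p
      rw [h2]
      exact Fin.ext (h4 (l p))
    · intro h4 c
      have h5 := h4 (l.symm c)
      rw [h2, Equiv.apply_symm_apply] at h5
      exact congrArg Fin.val h5
  have h4 : l.symm.trans (Θ g) = g := Equiv.ext fun x => by simp [Θ]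
  rw [if_congr h3 rfl rfl, h4]
  rfl

end Vale.Agent.P181.H445.FL
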